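import Mathlib

/-!
# P322: memoryless channels with a binary input
-/

open MeasureTheory

namespace Vale.Agent.N322

/-- `W` is a symmetric channel with input in `{-1,1}`: `W s` is the law of the output at the input
`s`, and some measurable bijection of the output space exchanges `W 1` and `W (-1)`. -/
def Symm {γ : Type} [MeasurableSpace γ] (W : ℤˣ → Measure γ) : Prop :=
  (∀ s, IsProbabilityMeasure (W s)) ∧ ∃ σ : γ ≃ᵐ γ, ∀ s, (W s).map σ = W (-s)

/-- `X` is uniform on `{-1,1}^n` and, given `X = x`, the outputs `Y i` are independent with laws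
`W i (x i)`. -/
structure Memoryless {Ω : Type} [MeasurableSpace Ω] (P : Measure Ω) {n : ℕ} {β : Fin n → Type}
    [∀ i, MeasurableSpace (β i)] (W : ∀ i, ℤˣ → Measure (β i)) (X : Ω → Fin n → ℤˣ)
    (Y : Ω → ∀ i, β i) : Prop where
  prob : IsProbabilityMeasure P
  measX : Measurable X
  measY : Measurable Y
  law : ∀ (x : Fin n → ℤˣ) (B : ∀ i, Set (β i)), (∀ i, MeasurableSet (B i)) →
    P {ω | X ω = x ∧ ∀ i, Y ω i ∈ B i} = 2⁻¹ ^ n * ∏ i, W i (x i) (B i)

end Vale.Agent.N322
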