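import Vale.Agent.P322.Bdl.B2

/-!
# P322: the tangent form of the lemma of Mrs. Gerber
-/

open Set

namespace Vale.Agent.N322

open Vale.Agent.P322 Vale.Agent.P322.RegA

theorem ph_zero : ph 0 = 0 := by rw [ph_eq]; simp

theorem ph_abs (x : ℝ) : ph |x| = ph x := by
  rcases abs_cases x with h | h
  · rw [h.1]
  · rw [h.1, ph_neg]

theorem mono_x {s : ℝ} (hs : 0 ≤ s) :
    Monotone fun k : ℕ => (s ^ (2 * k + 2) - 1) / (2 * (k : ℝ) + 2) := by
  refine monotone_nat_of_le_succ fun k => ?_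
  have h1 := pow_step hs (2 * k + 2)
  have h2 := pow_step hs (2 * k + 3)
  push_cast at h1 h2 ⊢
  have e1 : 2 * k + 2 + 1 = 2 * k + 3 := by ring
  have e2 : 2 * k + 3 + 1 = 2 * (k + 1) + 2 := by ring
  rw [e1] at h1
  rw [e2] at h2
  have hk : (0 : ℝ) ≤ k := Nat.cast_nonneg k
  have a1 : (s ^ (2 * k + 2) - 1) / (2 * (k : ℝ) + 2) ≤ (s ^ (2 * k + 3) - 1) / (2 * k + 3) := by
    rw [div_le_div_iff₀ (by positivity) (by positivity)]
    linarith
  have a2 : (s ^ (2 * k + 3) - 1) / (2 * (k : ℝ) + 3) ≤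
      (s ^ (2 * (k + 1) + 2) - 1) / (2 * (k + 1) + 2) := by
    rw [div_le_div_iff₀ (by positivity) (by positivity)]
    linarith
  exact a1.trans a2

/-- the tangent inequality for `ph` -/
theorem gerber {a ρ : ℝ} (a0 : 0 ≤ a) (a1 : a ≤ 1) (h0 : 0 ≤ ρ) (h1 : ρ < 1) :
    ∃ l : ℝ, 0 ≤ l ∧ ∀ t, 0 ≤ t → t < 1 → ph (a * t) - ph (a * ρ) ≤ l * (ph t - ph ρ) := by
  rcases h0.eq_or_lt with rfl | h0
  · refine ⟨a ^ 2, sq_nonneg a, fun t t0 t1 => ?_⟩
    rw [mul_zero, ph_zero, sub_zero, sub_zero]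
    exact MonoT.ph_scale_le t0 t1.le a0 a1
  have lt : ∀ {t : ℝ}, 0 ≤ t → t < 1 → |t| < 1 ∧ |a * t| < 1 := fun t0 t1 =>
    ⟨by rwa [abs_of_nonneg t0], by
      rw [abs_of_nonneg (mul_nonneg a0 t0)]
      exact (mul_le_of_le_one_left t0 a1).trans_lt t1⟩
  obtain ⟨r1, r2⟩ := lt h0.le h1
  obtain ⟨e, he⟩ : ∃ e, HasSum (fun k : ℕ => ρ ^ (2 * k + 2) / (2 * k + 1)) e :=
    ⟨_, hasSum_ser2 r1⟩
  obtain ⟨e', he'⟩ : ∃ e, HasSum (fun k : ℕ => (a * ρ) ^ (2 * k + 2) / (2 * k + 1)) e :=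
    ⟨_, hasSum_ser2 r2⟩
  have e0 : 0 < e := by
    have := le_hasSum he 0 fun j _ => by positivity
    exact lt_of_lt_of_le (by positivity) this
  have e1 : 0 ≤ e' := he'.nonneg fun j => by positivity
  refine ⟨e' / e, by positivity, fun t t0 t1 => ?_⟩
  obtain ⟨s1, s2⟩ := lt t0 t1
  have key := cheb (x := fun k : ℕ => ((t / ρ) ^ (2 * k + 2) - 1) / (2 * (k : ℝ) + 2))
    (w := fun k : ℕ => ρ ^ (2 * k + 2) / (2 * k + 1)) (lam := fun k => a ^ (2 * k + 2))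
    (g := ph t - ph ρ) (g' := ph (a * t) - ph (a * ρ)) (e := e) (e' := e')
    (T := (ph t - ph ρ) / e) (mono_x (by positivity)) (fun k => by positivity)
    (fun i j h => pow_le_pow_of_le_one a0 a1 (by omega)) (fun k => by positivity)
    (hasSum_of_eq ((hasSum_ph s1).sub (hasSum_ph r1)) (fun k => by
      rw [div_pow]; field_simp) rfl) he
    (hasSum_of_eq ((hasSum_ph s2).sub (hasSum_ph r2)) (fun k => by
      rw [div_pow, mul_pow, mul_pow]; field_simp) rfl)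
    (hasSum_of_eq he' (fun k => by rw [mul_pow]; ring) rfl) (by field_simp)
  refine key.trans_eq ?_
  ring

theorem hV_neg (r A B : ℝ) : hV (-r) A B = hV r A B := by
  unfold hV
  rw [neg_mul, ← sub_eq_add_neg, sub_neg_eq_add, add_comm]

/-- the tangent inequality for the conditional entropy of a sign -/
theorem tangent {ρ A B : ℝ} (h0 : 0 ≤ ρ) (h1 : ρ ≤ 1) (hAB : |A| + |B| ≤ 1) :
    ∃ l : ℝ, 0 ≤ l ∧ ∀ t, |t| ≤ 1 → hV ρ A B + l * (HH t - HH ρ) ≤ hV t A B := by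
  suffices h : ∃ l : ℝ, 0 ≤ l ∧ ∀ t ∈ Icc (0 : ℝ) 1, hV ρ A B + l * (HH t - HH ρ) ≤ hV t A B by
    obtain ⟨l, l0, hl⟩ := h
    refine ⟨l, l0, fun t ht => ?_⟩
    have := hl |t| ⟨abs_nonneg t, ht⟩
    rcases abs_cases t with k | k
    · rwa [k.1] at this
    · rwa [k.1, hV_neg, HH_even] at this
  rcases h1.eq_or_lt with rfl | h1
  · refine ⟨0, le_rfl, fun t ht => ?_⟩
    rw [zero_mul, add_zero]
    exact hV_one_le ht.1 ht.2 ((abs_add_le A B).trans hAB) ((abs_sub A B).trans hAB)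
  by_cases hB : B = 0
  · refine ⟨0, le_rfl, fun t _ => ?_⟩
    simp [hV, hB]
  have B0 : 0 < |B| := abs_pos.2 hB
  have A1 := neg_abs_le A
  have A2 := le_abs_self A
  have p1 : 0 < 1 + A := by linarith
  have p2 : 0 < 1 - A := by linarith
  obtain ⟨l1, l10, hl1⟩ := gerber (a := |B| / (1 + A)) (by positivity)
    (by rw [div_le_one p1]; linarith) h0 h1
  obtain ⟨l2, l20, hl2⟩ := gerber (a := |B| / (1 - A)) (by positivity)
    (by rw [div_le_one p2]; linarith) h0 h1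
  refine ⟨(1 + A) / 2 * l1 + (1 - A) / 2 * l2, by positivity, ?_⟩
  have pers : ∀ t, 0 ≤ t → t < 1 → hV t A B = HH A - ((1 + A) / 2 * ph (|B| / (1 + A) * t) +
      (1 - A) / 2 * ph (|B| / (1 - A) * t)) := by
    intro t t0 t1
    rw [hV_pers, ← ph_abs (t * B / (1 + A)), ← ph_abs (t * B / (1 - A)), abs_div, abs_div, abs_mul,
      abs_of_nonneg t0, abs_of_pos p1, abs_of_pos p2]
    · congr 4 <;> ring
    · rw [abs_mul, abs_of_nonneg t0]
      nlinarith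
  have cl : IsClosed {t : ℝ | hV ρ A B + ((1 + A) / 2 * l1 + (1 - A) / 2 * l2) * (HH t - HH ρ) ≤
      hV t A B} := by
    have := continuous_HH
    unfold hV
    exact isClosed_le (by fun_prop) (by fun_prop)
  rw [← closure_Ico zero_ne_one]
  refine fun t ht => closure_minimal (fun t ht => ?_) cl ht
  have k1 := mul_le_mul_of_nonneg_left (hl1 t ht.1 ht.2) (show 0 ≤ (1 + A) / 2 by positivity)
  have k2 := mul_le_mul_of_nonneg_left (hl2 t ht.1 ht.2) (show 0 ≤ (1 - A) / 2 by positivity)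
  rw [mem_ofPred_eq, pers t ht.1 ht.2, pers ρ h0 h1, HH_ph t (by rw [abs_of_nonneg ht.1]; exact ht.2.le),
    HH_ph ρ (by rw [abs_of_nonneg h0]; exact h1.le)]
  nlinarith

end Vale.Agent.N322
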