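import Vale.Agent.N322.Tensor
import Vale.Agent.P322R13.Br

/-!
# P322: the mutual information between a sign and an arbitrary random variable
-/

open MeasureTheory InformationTheory Set

namespace Vale.Agent.N322

open Vale.Agent.P322 Vale.Agent.P322R13

variable {γ : Type*} [MeasurableSpace γ]

theorem ext_sing {J K : Measure (ℤˣ × γ)}
    (h : ∀ (s : ℤˣ) (B : Set γ), MeasurableSet B → J ({s} ×ˢ B) = K ({s} ×ˢ B)) : J = K := by
  have := msc
  ext S hS
  have e : S = ({1} ×ˢ (Prod.mk 1 ⁻¹' S)) ∪ ({-1} ×ˢ (Prod.mk (-1) ⁻¹' S)) := by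
    ext ⟨s, y⟩
    rcases units_cases s with rfl | rfl <;> simp
  have d : Disjoint (({1} : Set ℤˣ) ×ˢ (Prod.mk 1 ⁻¹' S)) ({-1} ×ˢ (Prod.mk (-1) ⁻¹' S)) :=
    Disjoint.set_prod_left (by simp) _ _
  have m := (measurableSet_singleton (-1 : ℤˣ)).prod (measurable_prodMk_left (x := (-1 : ℤˣ)) hS)
  rw [e, measure_union d m, measure_union d m, h _ _ (measurable_prodMk_left hS),
    h _ _ (measurable_prodMk_left hS)]

theorem klFun_div {a b : ℝ} (h : b = 0 → a = 0) :
    b * klFun (a / b) = a * Real.log a - a * Real.log b + b - a := by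
  by_cases hb : b = 0
  · simp [hb, h hb]
  rw [klFun_apply, ← mul_log_div h]
  field_simp

variable {Ω : Type*} [MeasurableSpace Ω] {P : Measure Ω} [IsProbabilityMeasure P]

theorem relEnt_sign {μ : Measure γ} [IsProbabilityMeasure μ] {U : Ω → ℤˣ} {Y : Ω → γ}
    (hU : Measurable U) (hY : Measurable Y) {t : γ → ℝ} (ht : Measurable t) (t1 : ∀ y, |t y| ≤ 1)
    (h : ∀ (s : ℤˣ) (B : Set γ), MeasurableSet B →
      P.real {ω | U ω = s ∧ Y ω ∈ B} = ∫ y in B, (1 + ((s : ℤ) : ℝ) * t y) / 2 ∂μ) :
    relEnt P U Y ≠ ⊤ ∧ (relEnt P U Y).toReal = HH (∫ y, t y ∂μ) - ∫ y, HH (t y) ∂μ := by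
  have := msc
  have hm := hU.prodMk hY
  have := Measure.isProbabilityMeasure_map (μ := P) hm.aemeasurable
  have := Measure.isProbabilityMeasure_map (μ := P) hU.aemeasurable
  let a : ℤˣ → γ → ℝ := fun s y => (1 + ((s : ℤ) : ℝ) * t y) / 2
  let b : ℤˣ → ℝ := fun s => (1 + ((s : ℤ) : ℝ) * ∫ y, t y ∂μ) / 2
  have a0 : ∀ s y, 0 ≤ a s y := fun s y => div_nonneg (fac_nonneg s (t1 y)) zero_le_two
  have a1 : ∀ s y, a s y ≤ 1 := fun s y => by
    have := fac_nonneg (-s) (t1 y)
    simp only [Units.val_neg, Int.cast_neg] at this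
    simp only [a]
    linarith
  have ma : ∀ s, Measurable (a s) := fun s => by fun_prop
  have it : Integrable t μ := Integrable.of_bound ht.aestronglyMeasurable 1 (ae_of_all _ t1)
  have ia : ∀ s, Integrable (a s) μ := fun s =>
    ((integrable_const 1).add (it.const_mul _)).div_const 2
  have ab : ∀ s, ∫ y, a s y ∂μ = b s := fun s => by
    simp only [a, b]
    rw [integral_div, integral_add (integrable_const 1) (it.const_mul _), integral_const_mul]
    simp
  have b0 : ∀ s, 0 ≤ b s := fun s => ab s ▸ integral_nonneg (a0 s)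
  have hb : ∀ s, (P.map U).real {s} = b s := fun s => by
    rw [real_map hU, ← ab, ← setIntegral_univ, ← h s univ MeasurableSet.univ]
    simp
  have hμ : P.map Y = μ := by
    have := Measure.isProbabilityMeasure_map (μ := P) hY.aemeasurable
    ext B hB
    rw [← measureReal_eq_measureReal_iff, map_measureReal_apply hY hB]
    have e : Y ⁻¹' B = {ω | U ω = 1 ∧ Y ω ∈ B} ∪ {ω | U ω = -1 ∧ Y ω ∈ B} := by
      ext ω
      rcases units_cases (U ω) with k | k <;> simp [k]
    have d : Disjoint {ω | U ω = 1 ∧ Y ω ∈ B} {ω | U ω = -1 ∧ Y ω ∈ B} :=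
      disjoint_left.2 fun ω k k' => by
        have := k.1.symm.trans k'.1
        simp at this
    have m : MeasurableSet {ω | U ω = -1 ∧ Y ω ∈ B} :=
      (hU (measurableSet_singleton _)).inter (hY hB)
    rw [e, measureReal_union d m, h _ _ hB, h _ _ hB, ← integral_add (ia 1).integrableOn (ia (-1)).integrableOn]
    simp only [a, Units.val_one, Units.val_neg, Int.cast_one, Int.cast_neg]
    rw [show (fun y => (1 + 1 * t y) / 2 + (1 + -1 * t y) / 2) = fun _ => (1 : ℝ) from
      funext fun y => by ring]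
    simp
  let g : ℤˣ × γ → ℝ := fun z => a z.1 z.2 / b z.1
  have mg : Measurable g := by
    refine Measurable.div ?_ ((measurable_of_finite b).comp measurable_fst)
    have : Measurable fun s : ℤˣ => ((s : ℤ) : ℝ) := measurable_of_finite _
    simp only [a]
    fun_prop
  have g0 : ∀ z, 0 ≤ g z := fun z => div_nonneg (a0 _ _) (b0 _)
  have hJ : P.map (fun ω => (U ω, Y ω)) =
      ((P.map U).prod μ).withDensity fun z => ENNReal.ofReal (g z) := by
    refine ext_sing fun s B hB => ?_
    have hS := (measurableSet_singleton s).prod hB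
    have e1 : P.map (fun ω => (U ω, Y ω)) ({s} ×ˢ B) = ENNReal.ofReal (∫ y in B, a s y ∂μ) := by
      rw [← h s B hB, ofReal_measureReal, Measure.map_apply hm hS]
      rfl
    rw [e1, withDensity_apply _ hS, ← Measure.prod_restrict,
      lintegral_prod _ mg.ennreal_ofReal.aemeasurable, lintegral_singleton,
      ← ofReal_measureReal (μ := P.map U), hb, ← ofReal_integral_eq_lintegral_ofReal
        ((ia s).div_const (b s)).integrableOn (ae_of_all _ fun y => g0 (s, y)),
      ← ENNReal.ofReal_mul (integral_nonneg fun y => g0 (s, y))]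
    congr 1
    rw [show ∫ y in B, g (s, y) ∂μ = (∫ y in B, a s y ∂μ) / b s from integral_div (b s) (a s)]
    by_cases k : b s = 0
    · rw [k, mul_zero]
      refine le_antisymm ?_ (integral_nonneg (a0 s))
      rw [← k, ← ab]
      exact setIntegral_le_integral (ia s) (ae_of_all _ (a0 s))
    · rw [div_mul_cancel₀ _ k]
  have ac : P.map (fun ω => (U ω, Y ω)) ≪ (P.map U).prod μ :=
    hJ ▸ withDensity_absolutelyContinuous _ _
  have rn : ∀ᵐ z ∂(P.map U).prod μ, klFun ((P.map (fun ω => (U ω, Y ω))).rnDeriv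
      ((P.map U).prod μ) z).toReal = klFun (g z) := by
    rw [hJ]
    filter_upwards [Measure.rnDeriv_withDensity ((P.map U).prod μ) mg.ennreal_ofReal] with z hz
    rw [hz, ENNReal.toReal_ofReal (g0 z)]
  obtain ⟨C, hC⟩ := (isCompact_Icc (a := (0 : ℝ)) (b := 1 / b 1 + 1 / b (-1))
    ).exists_bound_of_continuousOn continuous_klFun.continuousOn
  have ig : Integrable (fun z => klFun (g z)) ((P.map U).prod μ) := by
    refine Integrable.of_bound (measurable_klFun.comp mg).aestronglyMeasurable C
      (ae_of_all _ fun z => hC _ ⟨g0 z, ?_⟩)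
    have k : g z ≤ 1 / b z.1 := div_le_div_of_nonneg_right (a1 _ _) (b0 _)
    have := one_div_nonneg.2 (b0 1)
    have := one_div_nonneg.2 (b0 (-1))
    rcases units_cases z.1 with e | e <;> rw [e] at k <;> linarith
  rw [relEnt, hμ]
  refine ⟨klDiv_ne_top ac ((integrable_klFun_rnDeriv_iff ac).1 (ig.congr (rn.mono fun z hz =>
    hz.symm))), ?_⟩
  have hz : ∀ s, ∀ᵐ y ∂μ, b s = 0 → a s y = 0 := fun s => by
    by_cases k : b s = 0
    · filter_upwards [(integral_eq_zero_iff_of_nonneg (a0 s) (ia s)).1 ((ab s).trans k)] with y hy _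
      exact hy
    · exact ae_of_all _ fun y k' => (k k').elim
  have il : ∀ s, Integrable (fun y => a s y * Real.log (a s y)) μ := fun s =>
    Integrable.of_bound ((ma s).mul (ma s).log).aestronglyMeasurable 1 (ae_of_all _ fun y => by
      rcases (a0 s y).eq_or_lt with k | k
      · simp [← k]
      · exact (Real.abs_log_mul_self_lt _ k (a1 s y)).le.trans_eq' (by
          rw [Real.norm_eq_abs, mul_comm]))
  have e2 : ∀ s, b s * ∫ y, klFun (g (s, y)) ∂μ =
      ∫ y, a s y * Real.log (a s y) ∂μ - b s * Real.log (b s) := fun s => by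
    have i1 : Integrable (fun y => a s y * Real.log (a s y) - a s y * Real.log (b s)) μ :=
      (il s).sub ((ia s).mul_const _)
    have i2 : Integrable (fun y => a s y * Real.log (a s y) - a s y * Real.log (b s) + b s) μ :=
      i1.add (integrable_const _)
    rw [← integral_const_mul, integral_congr_ae ((hz s).mono fun y hy => klFun_div hy),
      integral_sub i2 (ia s), integral_add i1 (integrable_const _),
      integral_sub (il s) ((ia s).mul_const _), integral_mul_const, ab]
    simp
  rw [toReal_klDiv_eq_integral_klFun ac, integral_congr_ae rn, integral_prod _ ig,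
    integral_fintype Integrable.of_finite, sum_units, hb, hb, smul_eq_mul, smul_eq_mul, e2, e2]
  have e3 : ∫ y, HH (t y) ∂μ =
      -(∫ y, a 1 y * Real.log (a 1 y) ∂μ + ∫ y, a (-1) y * Real.log (a (-1) y) ∂μ) := by
    rw [← integral_add (il 1) (il (-1)), ← integral_neg]
    refine integral_congr_ae (ae_of_all _ fun y => ?_)
    simp only [HH_eq_logs, a, Units.val_one, Units.val_neg, Int.cast_one, Int.cast_neg, one_mul,
      neg_mul, ← sub_eq_add_neg]
    ring
  rw [e3, HH_eq_logs]
  simp only [b, Units.val_one, Units.val_neg, Int.cast_one, Int.cast_neg, one_mul,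
      neg_mul, ← sub_eq_add_neg]
  ring

end Vale.Agent.N322
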