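import Vale.Agent.N322.Post

/-!
# P322: symmetric memoryless channels are dominated by the binary symmetric channel
-/

open MeasureTheory Set

namespace Vale.Agent.N322

open Vale.Agent.P322 Vale.Agent.P322R13

theorem TF_coord : ∀ (n : ℕ) (i : Fin n) (m : Fin n → ℝ),
    TF n (fun x => ((x i : ℤ) : ℝ)) m = m i
  | 0, i, _ => i.elim0
  | n + 1, i, m => by
    rw [TF_succ]
    refine Fin.cases ?_ (fun j => ?_) i
    · have := TF_lin n (fun _ => 1) (fun _ => 1) (-1) 0 fun j => m j.succ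
      simp only [Fin.cons_zero, Units.val_one, Units.val_neg, Int.cast_one, Int.cast_neg]
      simp only [mul_one, add_zero, TF_one] at this
      rw [this, TF_one]
      ring
    · simp only [Fin.cons_succ, TF_coord n j]
      ring

variable {Ω : Type} [MeasurableSpace Ω] {P : Measure Ω} {n : ℕ} {β : Fin n → Type}
  [∀ i, MeasurableSpace (β i)] {W : ∀ i, ℤˣ → Measure (β i)} {X : Ω → Fin n → ℤˣ}
  {Y : Ω → ∀ i, β i} {μ : ∀ i, Measure (β i)} {m : ∀ i, β i → ℝ}

theorem int_fac (hp : ∀ i, Post (W i) (μ i) (m i)) (s : ℤˣ) (i : Fin n) :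
    Integrable (fun y => 1 + ((s : ℤ) : ℝ) * m i y) (μ i) := by
  have := (hp i).prob
  exact (integrable_const 1).add ((Integrable.of_bound (hp i).meas.aestronglyMeasurable 1
    (ae_of_all _ (hp i).le)).const_mul _)

theorem int_prod (hp : ∀ i, Post (W i) (μ i) (m i)) (x : Fin n → ℤˣ) :
    Integrable (fun y : ∀ i, β i => ∏ i, (1 + ((x i : ℤ) : ℝ) * m i (y i))) (Measure.pi μ) := by
  have := fun i => (hp i).prob
  exact Integrable.fintype_prod_dep fun i => int_fac hp (x i) i

theorem pi_dens (hW : ∀ i, Symm (W i)) (hp : ∀ i, Post (W i) (μ i) (m i)) (x : Fin n → ℤˣ)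
    {S : Set (∀ i, β i)} (hS : MeasurableSet S) : (Measure.pi fun i => W i (x i)).real S =
      ∫ y in S, ∏ i, (1 + ((x i : ℤ) : ℝ) * m i (y i)) ∂Measure.pi μ := by
  have := fun i => (hp i).prob
  have := fun i => (hW i).1
  have p0 : ∀ y : ∀ i, β i, 0 ≤ ∏ i, (1 + ((x i : ℤ) : ℝ) * m i (y i)) := fun y =>
    Finset.prod_nonneg fun i _ => fac_nonneg _ ((hp i).le _)
  have key : ∀ T, MeasurableSet T → ((Measure.pi μ).withDensity fun y =>
      ENNReal.ofReal (∏ i, (1 + ((x i : ℤ) : ℝ) * m i (y i)))) T =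
      ENNReal.ofReal (∫ y in T, ∏ i, (1 + ((x i : ℤ) : ℝ) * m i (y i)) ∂Measure.pi μ) :=
    fun T hT => by
      rw [withDensity_apply _ hT, ofReal_integral_eq_lintegral_ofReal (int_prod hp x).integrableOn
        (ae_of_all _ p0)]
  have e : (Measure.pi fun i => W i (x i)) = (Measure.pi μ).withDensity fun y =>
      ENNReal.ofReal (∏ i, (1 + ((x i : ℤ) : ℝ) * m i (y i))) := by
    refine Measure.pi_eq fun B hB => ?_
    rw [key _ (MeasurableSet.univ_pi hB), Measure.restrict_pi_pi,
      integral_fintype_prod_eq_prod fun i y => 1 + ((x i : ℤ) : ℝ) * m i y,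
      ENNReal.ofReal_prod_of_nonneg fun i _ => integral_nonneg fun y => fac_nonneg _ ((hp i).le _)]
    refine Finset.prod_congr rfl fun i _ => ?_
    rw [← (hp i).dens _ _ (hB i), ofReal_measureReal]
  rw [e, Measure.real, key S hS, ENNReal.toReal_ofReal (integral_nonneg p0)]

theorem Memoryless.real_eq (h : Memoryless P W X Y) (hW : ∀ i, Symm (W i)) (x : Fin n → ℤˣ)
    {S : Set (∀ i, β i)} (hS : MeasurableSet S) : P.real {ω | X ω = x ∧ Y ω ∈ S} =
      (1 / 2) ^ n * (Measure.pi fun i => W i (x i)).real S := by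
  have := msc
  have := h.prob
  have := fun i => (hW i).1
  have key : ∀ T, MeasurableSet T → (P.restrict (X ⁻¹' {x})).map Y T =
      P {ω | X ω = x ∧ Y ω ∈ T} := fun T hT => by
    rw [Measure.map_apply h.measY hT, Measure.restrict_apply (h.measY hT), inter_comm]
    rfl
  have e : (Measure.pi fun i => W i (x i)) =
      (2 : ENNReal) ^ n • (P.restrict (X ⁻¹' {x})).map Y := by
    refine Measure.pi_eq fun B hB => ?_
    rw [Measure.smul_apply, key _ (MeasurableSet.univ_pi hB), smul_eq_mul]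
    simp only [mem_univ_pi]
    rw [h.law x B hB, ← mul_assoc, ← mul_pow, ENNReal.mul_inv_cancel two_ne_zero (by simp),
      one_pow, one_mul]
  rw [e, measureReal_ennreal_smul_apply, Measure.real, Measure.real, key S hS, ← mul_assoc]
  simp

theorem Memoryless.sign (h : Memoryless P W X Y) (hW : ∀ i, Symm (W i))
    (hp : ∀ i, Post (W i) (μ i) (m i)) (f : (Fin n → ℤˣ) → ℤˣ) (s : ℤˣ)
    {S : Set (∀ i, β i)} (hS : MeasurableSet S) : P.real {ω | f (X ω) = s ∧ Y ω ∈ S} =
      ∫ y in S, (1 + ((s : ℤ) : ℝ) * TF n (toR f) fun i => m i (y i)) / 2 ∂Measure.pi μ := by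
  have := msc
  have := h.prob
  have e1 : P.real {ω | f (X ω) = s ∧ Y ω ∈ S} = (P.restrict (Y ⁻¹' S)).real {ω | f (X ω) = s} := by
    rw [measureReal_restrict_apply' (h.measY hS)]
    rfl
  have e2 : ∀ x, (P.restrict (Y ⁻¹' S)).real {ω | X ω = x} = P.real {ω | X ω = x ∧ Y ω ∈ S} :=
    fun x => by
      rw [measureReal_restrict_apply' (h.measY hS)]
      rfl
  have e3 : ∀ (x : Fin n → ℤˣ) (r : ℝ), (if f x = s then r else 0) =
      (1 / 2 * 1 + ((s : ℤ) : ℝ) / 2 * toR f x) * r := fun x r => by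
    unfold toR
    rcases units_cases s with rfl | rfl <;> rcases units_cases (f x) with k | k <;> norm_num [k]
  rw [e1, real_sum h.measX fun x => f x = s]
  simp only [e2, e3, h.real_eq hW _ hS, pi_dens hW hp _ hS, ← integral_const_mul]
  rw [← integral_finsetSum _ fun x _ => (((int_prod hp x).integrableOn.const_mul _).const_mul _)]
  refine integral_congr_ae (ae_of_all _ fun y => ?_)
  have := TF_lin n (fun _ => 1) (toR f) (1 / 2) (((s : ℤ) : ℝ) / 2) fun i => m i (y i)
  rw [TF_one] at this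
  refine Eq.trans ?_ (this.trans (by ring))
  unfold TF avg
  rw [Finset.mul_sum]
  exact Finset.sum_congr rfl fun x _ => by ring

theorem int_TF (hW : ∀ i, Symm (W i)) (hp : ∀ i, Post (W i) (μ i) (m i))
    (F : (Fin n → ℤˣ) → ℝ) : ∫ y, TF n F (fun i => m i (y i)) ∂Measure.pi μ = avg n F := by
  have := fun i => (hW i).1
  unfold TF avg
  rw [integral_const_mul, integral_finsetSum _ fun x _ => (int_prod hp x).const_mul _]
  congr 1
  refine Finset.sum_congr rfl fun x _ => ?_
  rw [integral_const_mul, ← setIntegral_univ, ← pi_dens hW hp x MeasurableSet.univ]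
  simp

theorem Memoryless.relEnt_fun (h : Memoryless P W X Y) (hW : ∀ i, Symm (W i))
    (hp : ∀ i, Post (W i) (μ i) (m i)) (f : (Fin n → ℤˣ) → ℤˣ) :
    relEnt P (fun ω => f (X ω)) Y ≠ ⊤ ∧ (relEnt P (fun ω => f (X ω)) Y).toReal =
      HH (avg n (toR f)) - ∫ y, HH (TF n (toR f) fun i => m i (y i)) ∂Measure.pi μ := by
  have := msc
  have := h.prob
  have := fun i => (hp i).prob
  rw [← int_TF hW hp]
  exact relEnt_sign ((measurable_of_finite f).comp h.measX) h.measY
    ((continuous_TF _ _).measurable.comp (measurable_pi_lambda _ fun i =>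
      (hp i).meas.comp (measurable_pi_apply i)))
    (fun y => abs_TF_le (fun x => by rcases toR_cases f x with k | k <;> simp [k])
      fun i => (hp i).le _) fun s S hS => h.sign hW hp f s hS

theorem Memoryless.relEnt_coord (h : Memoryless P W X Y) (hW : ∀ i, Symm (W i))
    (hp : ∀ i, Post (W i) (μ i) (m i)) (i : Fin n) :
    relEnt P (fun ω => X ω i) (fun ω => Y ω i) ≠ ⊤ ∧ (relEnt P (fun ω => X ω i) fun ω => Y ω i).toReal =
      Real.log 2 - ∫ y, HH (m i y) ∂μ i := by
  have := msc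
  have := h.prob
  have := fun i => (hp i).prob
  have := fun i => (hW i).1
  have e0 : ∫ y, m i y ∂μ i = 0 := by
    have k := (hp i).dens 1 univ MeasurableSet.univ
    rw [setIntegral_univ, integral_add (integrable_const 1) ((Integrable.of_bound
      (hp i).meas.aestronglyMeasurable 1 (ae_of_all _ (hp i).le)).const_mul _),
      integral_const_mul] at k
    simpa using k
  rw [← HH_zero, ← e0]
  refine relEnt_sign ((measurable_pi_apply i).comp h.measX)
    ((measurable_pi_apply i).comp h.measY) (hp i).meas (hp i).le fun s B hB => ?_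
  refine (h.sign hW hp (fun x => x i) s (measurable_pi_apply i hB)).trans ?_
  have e := TF_coord n i
  unfold toR
  simp only [e]
  rw [← (measurePreserving_eval μ i).map_eq, setIntegral_map hB _
    (measurable_pi_apply i).aemeasurable]
  have := (hp i).meas
  exact Measurable.aestronglyMeasurable (by fun_prop)

/-- **Comparison with the binary symmetric channel.** -/
theorem Memoryless.info_le (h : Memoryless P W X Y) (hW : ∀ i, Symm (W i)) {ε : ℝ} (h0 : 0 ≤ ε)
    (h1 : ε ≤ 1 / 2) (hc : ∀ i, info P (fun ω => X ω i) (fun ω => Y ω i) ≤ 1 - h2 ε)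
    (f : (Fin n → ℤˣ) → ℤˣ) : info P (fun ω => f (X ω)) Y ≤ mutualInfo (outLaw n ε f) := by
  choose μ m hp using fun i => exists_post (hW i)
  have := fun i => (hp i).prob
  have hl : 0 < Real.log 2 := Real.log_pos one_lt_two
  rw [info, (h.relEnt_fun hW hp f).2, mutualInfo_outLaw h0 (by linarith)]
  refine div_le_div_of_nonneg_right (sub_le_sub_left ?_ _) hl.le
  simp only [TT_eq_TF]
  refine tensor (by rw [abs_le]; constructor <;> linarith) n β μ m (fun i => (hp i).meas)
    (fun i => (hp i).le) (fun i => (hp i).good _ (by linarith) (by linarith) ?_) _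
    fun x => by rcases toR_cases f x with k | k <;> simp [k]
  have k := hc i
  rw [info, (h.relEnt_coord hW hp i).2, h2_eq, div_le_iff₀ hl, sub_mul,
    div_mul_cancel₀ _ hl.ne'] at k
  linarith

theorem Memoryless.info_mem (h : Memoryless P W X Y) (hW : ∀ i, Symm (W i)) (i : Fin n) :
    info P (fun ω => X ω i) (fun ω => Y ω i) ∈ Icc (0 : ℝ) 1 := by
  choose μ m hp using fun i => exists_post (hW i)
  have hl : 0 < Real.log 2 := Real.log_pos one_lt_two
  refine ⟨div_nonneg ENNReal.toReal_nonneg hl.le, ?_⟩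
  rw [info, (h.relEnt_coord hW hp i).2, div_le_one hl]
  exact sub_le_self _ (integral_nonneg fun y => HH_nn ((hp i).le y))

theorem Memoryless.finite (h : Memoryless P W X Y) (hW : ∀ i, Symm (W i))
    (f : (Fin n → ℤˣ) → ℤˣ) : relEnt P (fun ω => f (X ω)) Y ≠ ⊤ ∧
      ∀ i, relEnt P (fun ω => X ω i) (fun ω => Y ω i) ≠ ⊤ := by
  choose μ m hp using fun i => exists_post (hW i)
  exact ⟨(h.relEnt_fun hW hp f).1, fun i => (h.relEnt_coord hW hp i).1⟩

theorem exists_eps {c : ℝ} (hc : c ∈ Icc (0 : ℝ) 1) : ∃ ε ∈ Icc (0 : ℝ) (1 / 2), 1 - h2 ε = c := by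
  have hl : Real.log 2 ≠ 0 := (Real.log_pos one_lt_two).ne'
  have ct : Continuous fun ε => 1 - h2 ε := by
    simp only [h2_eq]
    have := continuous_HH
    fun_prop
  refine intermediate_value_Icc' (by norm_num) ct.continuousOn ?_
  simp only [h2_eq]
  norm_num [HH_one, HH_zero, div_self hl]
  exact hc

theorem Memoryless.dist (h : Memoryless P W X Y) (hW : ∀ i, Symm (W i)) (p : (Fin n → ℤˣ) → Prop)
    [DecidablePred p] : P.real {ω | p (X ω)} = ((Finset.univ.filter p).card : ℝ) / 2 ^ n := by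
  have := msc
  have := h.prob
  have := fun i => (hW i).1
  have e : ∀ x, P.real {ω | X ω = x} = (1 / 2) ^ n := fun x => by
    simpa using h.real_eq hW x MeasurableSet.univ
  rw [real_sum h.measX p]
  simp only [e]
  rw [← Finset.sum_filter, Finset.sum_const, nsmul_eq_mul, one_div, inv_pow, div_eq_mul_inv]

/-- **The inequality for all symmetric channels.** -/
theorem Memoryless.best (h : Memoryless P W X Y) (hW : ∀ i, Symm (W i)) (hn : 0 < n)
    (f : (Fin n → ℤˣ) → ℤˣ) :
    ∃ i, info P (fun ω => f (X ω)) Y ≤ info P (fun ω => X ω i) fun ω => Y ω i := by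
  obtain ⟨i, -, hi⟩ := Finset.exists_max_image Finset.univ
    (fun i => info P (fun ω => X ω i) fun ω => Y ω i) ⟨⟨0, hn⟩, Finset.mem_univ _⟩
  obtain ⟨ε, hε, e⟩ := exists_eps (h.info_mem hW i)
  exact ⟨i, ((h.info_le hW hε.1 hε.2 (fun j => e ▸ hi j (Finset.mem_univ _)) f).trans
    (courtade_kumar n f ε hε.1 hε.2)).trans_eq e⟩

theorem exists_eps' {c : ℝ} (h0 : 0 < c) (h1 : c < 1) :
    ∃ ε : ℝ, 0 < ε ∧ ε < 1 / 2 ∧ 1 - h2 ε = c := by
  obtain ⟨ε, hε, e⟩ := exists_eps ⟨h0.le, h1.le⟩
  have hl : Real.log 2 ≠ 0 := (Real.log_pos one_lt_two).ne'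
  refine ⟨ε, hε.1.lt_of_ne ?_, hε.2.lt_of_ne ?_, e⟩
  · rintro rfl
    norm_num [h2_eq, HH_one] at e
    linarith
  · rintro rfl
    norm_num [h2_eq, HH_zero, div_self hl] at e
    linarith

theorem exists_memoryless (W : ∀ i, ℤˣ → Measure (β i)) (hW : ∀ i, Symm (W i)) :
    ∃ (Ω : Type) (_ : MeasurableSpace Ω) (P : Measure Ω) (X : Ω → Fin n → ℤˣ)
      (Y : Ω → ∀ i, β i), Memoryless P W X Y := by
  have := msc
  have := fun i => (hW i).1
  refine ⟨(Fin n → ℤˣ) × ∀ i, β i, inferInstance, ∑ x : Fin n → ℤˣ, (2⁻¹ : ENNReal) ^ n •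
    (Measure.dirac x).prod (Measure.pi fun i => W i (x i)), Prod.fst, Prod.snd, ⟨?_⟩,
    measurable_fst, measurable_snd, fun x B hB => ?_⟩
  · simp only [Measure.finsetSum_apply, Measure.smul_apply, measure_univ, smul_eq_mul, mul_one,
      Finset.sum_const, Finset.card_univ, Fintype.card_fun, Fintype.card_fin, nsmul_eq_mul]
    rw [show Fintype.card ℤˣ = 2 from rfl]
    push_cast
    rw [← mul_pow, ENNReal.mul_inv_cancel two_ne_zero (by simp), one_pow]
  · have e : {ω : (Fin n → ℤˣ) × ∀ i, β i | ω.1 = x ∧ ∀ i, ω.2 i ∈ B i} = {x} ×ˢ univ.pi B := by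
      ext ω
      simp
    rw [e, Measure.finsetSum_apply, Finset.sum_eq_single x (fun y _ k => by simp [k]) (by simp)]
    simp

end Vale.Agent.N322
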