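import Vale.Agent.N322.Defs
import Vale.Agent.N322.KL

/-!
# P322: the posterior mean of a symmetric channel
-/

open MeasureTheory Set

namespace Vale.Agent.N322

open Vale.Agent.P322

/-- `μ` is the output law at the uniform input and `m` is the posterior mean of the input -/
structure Post {γ : Type} [MeasurableSpace γ] (W : ℤˣ → Measure γ) (μ : Measure γ) (m : γ → ℝ) :
    Prop where
  prob : IsProbabilityMeasure μ
  meas : Measurable m
  le : ∀ y, |m y| ≤ 1
  dens : ∀ (s : ℤˣ) (B : Set γ), MeasurableSet B →
    (W s).real B = ∫ y in B, (1 + ((s : ℤ) : ℝ) * m y) ∂μ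
  good : ∀ ρ : ℝ, 0 ≤ ρ → ρ ≤ 1 → HH ρ ≤ ∫ y, HH (m y) ∂μ → Good μ m ρ

theorem exists_post {γ : Type} [MeasurableSpace γ] {W : ℤˣ → Measure γ} (h : Symm W) :
    ∃ μ m, Post W μ m := by
  obtain ⟨hp, σ, hσ⟩ := h
  let μ : Measure γ := (2 : NNReal)⁻¹ • (W 1 + W (-1))
  have hμ : ∀ B, μ.real B = ((W 1).real B + (W (-1)).real B) / 2 := fun B => by
    simp only [μ]
    rw [measureReal_nnreal_smul_apply, measureReal_add_apply]
    push_cast
    ring
  have : IsProbabilityMeasure μ := ⟨by
    simp only [μ, Measure.smul_apply, Measure.add_apply, measure_univ, one_add_one_eq_two,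
      ENNReal.smul_def, smul_eq_mul]
    rw [ENNReal.coe_inv two_ne_zero]
    exact ENNReal.inv_mul_cancel two_ne_zero (by simp)⟩
  have le : W 1 ≤ W 1 + W (-1) := Measure.le_add_right le_rfl
  let m : γ → ℝ := fun y => 2 * min ((W 1).rnDeriv (W 1 + W (-1)) y).toReal 1 - 1
  have hm : Measurable m := by fun_prop
  have m1 : ∀ y, |m y| ≤ 1 := fun y => by
    have a := min_le_right ((W 1).rnDeriv (W 1 + W (-1)) y).toReal 1
    have b : 0 ≤ min ((W 1).rnDeriv (W 1 + W (-1)) y).toReal 1 :=
      le_min ENNReal.toReal_nonneg zero_le_one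
    rw [abs_le]
    constructor <;> simp only [m] <;> linarith
  have im : Integrable m μ := Integrable.of_bound hm.aestronglyMeasurable 1 (ae_of_all _ m1)
  have d1 : ∀ B, MeasurableSet B → ∫ y in B, m y ∂μ = ((W 1).real B - (W (-1)).real B) / 2 := by
    intro B hB
    have e : ∫ y in B, (1 + m y) ∂μ = (W 1).real B := by
      rw [← Measure.setIntegral_toReal_rnDeriv (Measure.absolutelyContinuous_of_le le) B]
      simp only [μ]
      rw [Measure.restrict_smul, integral_smul_nnreal_measure, NNReal.smul_def, smul_eq_mul,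
        ← integral_const_mul]
      refine integral_congr_ae (ae_restrict_of_ae ?_)
      filter_upwards [Measure.rnDeriv_le_one_of_le le] with y hy
      have : ((W 1).rnDeriv (W 1 + W (-1)) y).toReal ≤ 1 := by
        simpa using ENNReal.toReal_mono ENNReal.one_ne_top hy
      simp only [m, min_eq_left this]
      push_cast
      ring
    rw [integral_add (integrable_const 1) im.integrableOn, setIntegral_const, hμ, smul_eq_mul] at e
    linarith
  have pres : MeasurePreserving σ μ μ := ⟨σ.measurable, by
    simp only [μ]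
    rw [Measure.map_smul, Measure.map_add _ _ σ.measurable, hσ, hσ, neg_neg, add_comm]⟩
  have hW : ∀ (s : ℤˣ) (B : Set γ), (W (-s)).real (σ '' B) = (W s).real B := fun s B => by
    rw [← hσ, Measure.real, σ.map_apply, σ.preimage_image, Measure.real]
  refine ⟨μ, m, this, hm, m1, fun s B hB => ?_, fun ρ r0 r1 =>
    good_of_symm hm m1 σ pres ?_ r0 r1⟩
  · rw [integral_add (integrable_const 1) (im.const_mul _).integrableOn, setIntegral_const, hμ,
      integral_const_mul, d1 B hB]
    rcases units_cases s with rfl | rfl <;> simp <;> ring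
  · refine Integrable.ae_eq_of_forall_setIntegral_eq _ (fun y => -m y)
      ((pres.integrable_comp_emb σ.measurableEmbedding).2 im) im.neg fun B hB _ => ?_
    have k := pres.setIntegral_preimage_emb σ.measurableEmbedding m (σ '' B)
    have k1 := hW 1 B
    have k2 := hW (-1) B
    rw [neg_neg] at k2
    rw [σ.preimage_image, d1 _ (σ.measurableSet_image.2 hB), k1, k2] at k
    rw [integral_neg, d1 B hB]
    exact k.trans (by ring)

end Vale.Agent.N322
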