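import Vale.Agent.N322.Gerber

/-!
# P322: replacing symmetric channels by binary symmetric channels, one coordinate at a time
-/

open MeasureTheory

namespace Vale.Agent.N322

open Vale.Agent.P322

/-- the conditional mean of `F(X)` when the posterior means of the coordinates are `m` -/
noncomputable def TF (n : ℕ) (F : (Fin n → ℤˣ) → ℝ) (m : Fin n → ℝ) : ℝ :=
  avg n fun x => F x * ∏ i, (1 + ((x i : ℤ) : ℝ) * m i)

theorem TF_succ (n : ℕ) (F : (Fin (n + 1) → ℤˣ) → ℝ) (m : Fin (n + 1) → ℝ) :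
    TF (n + 1) F m =
      (TF n (fun x => F (Fin.cons 1 x)) (fun j => m j.succ) +
        TF n (fun x => F (Fin.cons (-1) x)) (fun j => m j.succ)) / 2 +
      m 0 * ((TF n (fun x => F (Fin.cons 1 x)) (fun j => m j.succ) -
        TF n (fun x => F (Fin.cons (-1) x)) (fun j => m j.succ)) / 2) := by
  unfold TF
  rw [avg_succ]
  simp only [Fin.prod_univ_succ, Fin.cons_zero, Fin.cons_succ, Units.val_one, Units.val_neg,
    Int.cast_one, Int.cast_neg]
  have e : ∀ (c : ℝ) (G P : (Fin n → ℤˣ) → ℝ),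
      avg n (fun x => G x * (c * P x)) = c * avg n fun x => G x * P x := fun c G P => by
    rw [← avg_mul_left]
    congr 1
    funext x
    ring
  rw [e, e]
  ring

theorem TF_lin (n : ℕ) (F G : (Fin n → ℤˣ) → ℝ) (a b : ℝ) (m : Fin n → ℝ) :
    TF n (fun x => a * F x + b * G x) m = a * TF n F m + b * TF n G m := by
  unfold TF
  rw [← avg_mul_left, ← avg_mul_left, ← avg_add]
  congr 1
  funext x
  ring

theorem TF_one (n : ℕ) (m : Fin n → ℝ) : TF n (fun _ => 1) m = 1 := by
  induction n with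
  | zero => simp [TF, avg]
  | succ n ih => rw [TF_succ, ih]; ring

theorem fac_nonneg (s : ℤˣ) {t : ℝ} (h : |t| ≤ 1) : 0 ≤ 1 + ((s : ℤ) : ℝ) * t := by
  rw [abs_le] at h
  rcases units_cases s with rfl | rfl <;> simp <;> linarith

theorem abs_TF_le {n : ℕ} {F : (Fin n → ℤˣ) → ℝ} (hF : ∀ x, |F x| ≤ 1) {m : Fin n → ℝ}
    (hm : ∀ i, |m i| ≤ 1) : |TF n F m| ≤ 1 := by
  have p : ∀ x : Fin n → ℤˣ, 0 ≤ ∏ i, (1 + ((x i : ℤ) : ℝ) * m i) := fun x =>
    Finset.prod_nonneg fun i _ => fac_nonneg _ (hm i)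
  have u := TF_one n m
  have v := TF_lin n (fun _ => 1) (fun _ => 1) (-1) 0 m
  rw [u] at v
  unfold TF at *
  rw [abs_le]
  constructor
  · refine le_trans (by linarith) (avg_mono (g := fun x => (-1 * 1 + 0 * 1) *
      ∏ i, (1 + ((x i : ℤ) : ℝ) * m i)) fun x => mul_le_mul_of_nonneg_right ?_ (p x))
    linarith [(abs_le.1 (hF x)).1]
  · exact (avg_mono fun x => mul_le_mul_of_nonneg_right (abs_le.1 (hF x)).2 (p x)).trans_eq u

theorem continuous_TF (n : ℕ) (F : (Fin n → ℤˣ) → ℝ) : Continuous (TF n F) := by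
  unfold TF avg
  fun_prop

theorem TT_eq_TF (n : ℕ) (ε : ℝ) (F : (Fin n → ℤˣ) → ℝ) (y : Fin n → ℤˣ) :
    TT n ε F y = TF n F fun i => (1 - 2 * ε) * ((y i : ℤ) : ℝ) := by
  unfold TT TF avg
  rw [Finset.mul_sum]
  refine Finset.sum_congr rfl fun x _ => ?_
  have e : ∀ a b : ℤˣ, ker ε a b = 1 / 2 * (1 + ((a : ℤ) : ℝ) * ((1 - 2 * ε) * ((b : ℤ) : ℝ))) := by
    intro a b
    rcases units_cases a with rfl | rfl <;> rcases units_cases b with rfl | rfl <;>
      simp [ker] <;> ring
  simp only [e, Finset.prod_mul_distrib, Finset.prod_const, Finset.card_univ, Fintype.card_fin]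
  ring

theorem int_HH {γ : Type*} [MeasurableSpace γ] {μ : Measure γ} [IsFiniteMeasure μ] {g : γ → ℝ}
    (hg : Measurable g) (h : ∀ y, |g y| ≤ 1) : Integrable (fun y => HH (g y)) μ :=
  Integrable.of_bound (continuous_HH.measurable.comp hg).aestronglyMeasurable (Real.log 2)
    (ae_of_all _ fun y => by
      rw [Real.norm_eq_abs, abs_of_nonneg (HH_nn (h y))]
      exact HH_le_log_two _)

theorem abs_aff {A B t : ℝ} (hAB : |A| + |B| ≤ 1) (ht : |t| ≤ 1) : |A + t * B| ≤ 1 := by
  have := abs_add_le A (t * B)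
  rw [abs_mul] at this
  nlinarith [abs_nonneg B]

/-- the posterior mean `m` leaves at least the uncertainty of the binary symmetric channel `ρ` -/
def Good {γ : Type*} [MeasurableSpace γ] (μ : Measure γ) (m : γ → ℝ) (ρ : ℝ) : Prop :=
  ∀ A B : ℝ, |A| + |B| ≤ 1 → hV ρ A B ≤ ∫ y, HH (A + m y * B) ∂μ

theorem good_of_symm {γ : Type*} [MeasurableSpace γ] {μ : Measure γ} [IsProbabilityMeasure μ]
    {m : γ → ℝ} (hm : Measurable m) (h1 : ∀ y, |m y| ≤ 1) (σ : γ ≃ᵐ γ)
    (hσ : MeasurePreserving σ μ μ) (hs : ∀ᵐ y ∂μ, m (σ y) = -m y) {ρ : ℝ} (r0 : 0 ≤ ρ)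
    (r1 : ρ ≤ 1) (hc : HH ρ ≤ ∫ y, HH (m y) ∂μ) : Good μ m ρ := by
  intro A B hAB
  obtain ⟨l, l0, hl⟩ := tangent r0 r1 hAB
  have i1 : Integrable (fun y => HH (A + m y * B)) μ :=
    int_HH (by fun_prop) fun y => abs_aff hAB (h1 y)
  have i2 : Integrable (fun y => HH (A - m y * B)) μ :=
    int_HH (by fun_prop) fun y => by
      have := abs_aff (t := -m y) hAB (by rw [abs_neg]; exact h1 y)
      rwa [neg_mul, ← sub_eq_add_neg] at this
  have i3 : Integrable (fun y => HH (m y)) μ := int_HH hm h1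
  have e : ∫ y, HH (A - m y * B) ∂μ = ∫ y, HH (A + m y * B) ∂μ := by
    rw [← hσ.integral_comp' fun y => HH (A + m y * B)]
    refine integral_congr_ae (hs.mono fun y hy => ?_)
    simp only [hy, neg_mul, ← sub_eq_add_neg]
  have k := integral_mono (((i3.sub (integrable_const (HH ρ))).const_mul l).add
    (integrable_const (hV ρ A B))) ((i1.add i2).div_const 2) fun y => by
      have := hl _ (h1 y)
      simp only [Pi.add_apply, Pi.sub_apply]
      unfold hV at this ⊢
      linarith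
  simp only [Pi.add_apply, Pi.sub_apply] at k
  have i4 : Integrable (fun y => l * (HH (m y) - HH ρ)) μ :=
    (i3.sub (integrable_const (HH ρ))).const_mul l
  rw [integral_add i4 (integrable_const _), integral_const_mul,
    integral_sub i3 (integrable_const _), integral_div, integral_add i1 i2, e] at k
  simp only [integral_const, probReal_univ, smul_eq_mul, one_mul] at k
  nlinarith

theorem tensor {ρ : ℝ} (hρ : |ρ| ≤ 1) (n : ℕ) : ∀ (β : Fin n → Type) [∀ i, MeasurableSpace (β i)]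
    (μ : ∀ i, Measure (β i)) [∀ i, IsProbabilityMeasure (μ i)] (m : ∀ i, β i → ℝ),
    (∀ i, Measurable (m i)) → (∀ i y, |m i y| ≤ 1) → (∀ i, Good (μ i) (m i) ρ) →
    ∀ F : (Fin n → ℤˣ) → ℝ, (∀ x, |F x| ≤ 1) →
    avg n (fun y => HH (TF n F fun i => ρ * ((y i : ℤ) : ℝ))) ≤
      ∫ y, HH (TF n F fun i => m i (y i)) ∂Measure.pi μ := by
  induction n with
  | zero =>
    intro β _ μ _ m _ _ _ F _
    have e : ∀ u v : Fin 0 → ℝ, u = v := fun u v => Subsingleton.elim u v
    simp only [e _ 0, avg_const, integral_const, probReal_univ, smul_eq_mul, one_mul, le_refl]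
  | succ n ih =>
    intro β _ μ _ m hm h1 hg F hF
    let m' : (∀ j : Fin n, β j.succ) → Fin n → ℝ := fun y j => m j.succ (y j)
    have hm' : Measurable m' := measurable_pi_lambda _ fun j => (hm _).comp (measurable_pi_apply j)
    let P : (∀ j : Fin n, β j.succ) → ℝ := fun y => TF n (fun x => F (Fin.cons 1 x)) (m' y)
    let Q : (∀ j : Fin n, β j.succ) → ℝ := fun y => TF n (fun x => F (Fin.cons (-1) x)) (m' y)
    have hP : Measurable P := (continuous_TF _ _).measurable.comp hm'
    have hQ : Measurable Q := (continuous_TF _ _).measurable.comp hm'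
    have hPQ : ∀ y, |(P y + Q y) / 2| + |(P y - Q y) / 2| ≤ 1 := fun y =>
      abs_half_add_half (abs_TF_le (fun x => hF _) fun j => h1 _ _)
        (abs_TF_le (fun x => hF _) fun j => h1 _ _)
    let G : β 0 × (∀ j : Fin n, β j.succ) → ℝ := fun p =>
      HH ((P p.2 + Q p.2) / 2 + m 0 p.1 * ((P p.2 - Q p.2) / 2))
    have hG : Integrable G ((μ 0).prod (Measure.pi fun j : Fin n => μ j.succ)) :=
      int_HH (by have := hm 0; fun_prop) fun p => abs_aff (hPQ _) (h1 _ _)
    have e1 : ∫ y, HH (TF (n + 1) F fun i => m i (y i)) ∂Measure.pi μ =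
        ∫ p, G p ∂(μ 0).prod (Measure.pi fun j : Fin n => μ j.succ) := by
      refine Eq.trans ?_ ((measurePreserving_piFinSuccAbove μ 0).integral_comp' G)
      refine integral_congr_ae (ae_of_all _ fun y => ?_)
      simp only [TF_succ]
      rfl
    let Fs : ℝ → (Fin n → ℤˣ) → ℝ := fun r x =>
      (1 + r) / 2 * F (Fin.cons 1 x) + (1 - r) / 2 * F (Fin.cons (-1) x)
    have hFs : ∀ r, |r| ≤ 1 → ∀ x, |Fs r x| ≤ 1 := fun r hr x => by
      have := abs_aff (abs_half_add_half (hF (Fin.cons 1 x)) (hF (Fin.cons (-1) x))) hr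
      convert this using 2
      simp only [Fs]
      ring
    have hρ' : |-ρ| ≤ 1 := by rwa [abs_neg]
    have i1 := ih (fun j => β j.succ) (fun j => μ j.succ) (fun j => m j.succ) (fun j => hm _)
      (fun j => h1 _) (fun j => hg _) (Fs ρ) (hFs ρ hρ)
    have i2 := ih (fun j => β j.succ) (fun j => μ j.succ) (fun j => m j.succ) (fun j => hm _)
      (fun j => h1 _) (fun j => hg _) (Fs (-ρ)) (hFs (-ρ) hρ')
    have j1 : ∀ r, |r| ≤ 1 → Integrable (fun y => HH (TF n (Fs r) (m' y)))
        (Measure.pi fun j : Fin n => μ j.succ) := fun r hr =>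
      int_HH ((continuous_TF _ _).measurable.comp hm') fun y => abs_TF_le (hFs r hr) fun j => h1 _ _
    have k := integral_mono (((j1 ρ hρ).add (j1 (-ρ) hρ')).div_const 2) hG.integral_prod_right
      fun y => by
        refine le_of_eq_of_le ?_ (hg 0 _ _ (hPQ y))
        simp only [Pi.add_apply, Fs, TF_lin, hV, P, Q]
        congr 3 <;> ring
    simp only [Pi.add_apply] at k
    rw [integral_div, integral_add (j1 ρ hρ) (j1 (-ρ) hρ')] at k
    rw [e1, integral_prod_symm G hG, avg_succ]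
    refine le_trans ?_ k
    refine div_le_div_of_nonneg_right (add_le_add (le_of_eq_of_le ?_ i1) (le_of_eq_of_le ?_ i2))
      zero_le_two
    all_goals
      congr 1
      funext y
      simp only [TF_succ, Fs, TF_lin, Fin.cons_zero, Fin.cons_succ, Units.val_one, Units.val_neg,
        Int.cast_one, Int.cast_neg]
      congr 1
      ring

end Vale.Agent.N322
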